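import Vale.Agent.P307.R2.H478.Shr4
import Vale.Agent.P307.R2.H650.ShrFree

/-!
Size reduction of isolating sets from sequences in the trace which have limits in the set.
-/

set_option linter.unusedSectionVars false

universe u v w

open FirstOrder Cardinal Set

namespace Vale.Agent.P307.R2.H478

open Vale.Agent.P307 Vale.Agent.P307.H304 Vale.Agent.P307.R2.H287 Vale.Agent.P307.R2.H1
  Vale.Agent.P307.R2.H971 Vale.Agent.P307.R2.H804 Vale.Agent.P307.R2.H650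
  Vale.Agent.P307.R2.H541 Language.Structure Language.Substructure Function

variable {L : Language.{u, u}} {K : AEC L} {ℓ θ τ τ₁ τ₂ μ ν ρ μ₀ : Cardinal.{u}}
  {κf α : Cardinal.{u} → Cardinal.{u}} {C : Type u} [L.Structure C]

section

variable (h₀ : BasePt K ℓ κf α θ) (hK : K.IsLS ℓ)
  (hunb : ∀ ν, ν < κf ν ∧ K.CategoricalIn (κf ν)) (hst : Stab K ℓ α (H287.thr κf))
  (hCm : K.mem C) (hs : Sat K θ C) (hCc : #C = Order.succ θ)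

include h₀ hK hunb hst hCm hs hCc

/-- **The free copy.** -/
theorem exists_free_copyN (hτ₁ : BasePt K ℓ κf α τ₁) (hτ₁θ : τ₁ < θ)
    (hl : Lvl ℓ κf α ν μ ρ τ₁) (hα : α ν ≤ μ)
    {N T : L.Substructure C} (hN : K.le N) (hNc : #N = θ) (hT : K.le T) (hTc : #T = τ₁)
    (hTN : T ≤ N) {ι : Type u} (hι : #ι ≤ ν) (r : ι → C) :
    ∃ v : ι → C,
      (∀ p ⊆ (T : Set C), #p < τ₁ → ∃ k ∈ autG L C, (∀ a ∈ p, k a = a) ∧ ∀ i, k (r i) = v i) ∧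
      ∃ q₀ ⊆ (T : Set C), #q₀ ≤ ρ ∧ ∀ q ⊆ (N : Set C), #q ≤ ν → ∃ s ∈ autG L C,
        (∀ a ∈ q, s a = a) ∧ ∀ i, s (v i) ∈ q₀ := by
  classical
  have hθ : ℵ₀ ≤ θ := H541.aleph0_le_pt h₀ hK
  have hlθ : Lvl ℓ κf α ν μ ρ θ := lvl_mono hl hτ₁θ.le
  have hμ := hl.hμ hK
  have hν : ℵ₀ ≤ ν := hK.1.trans hl.hℓ
  have hμρ := hl.μρ hunb
  have hTr : Refl L ρ (T : Set C) :=
    refl_of_le hK hunb (hl.hℓμ.trans hμρ) hT (hl.thr.trans hTc.ge)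
  obtain ⟨z, hz1, hz2⟩ := exists_free h₀ hK hunb hlθ hs N hN hNc (hι.trans hl.νμ) r hTN hTr
  refine ⟨z, ?_, ?_⟩
  · intro p hp hpc
    exact exists_conj_low h₀ hK hunb hst hCm hs hCc hτ₁ hτ₁θ hl T hT hTc
      hι r z (fun ζ y hζ hy => (hz2 ζ y hζ hy).symm) hp hpc
  · obtain ⟨a, ha1, ha2⟩ := hz1
    refine ⟨range fun q : SuccTy (opB κf μ) × ι => a q.1 q.2, ?_, ?_, ?_⟩
    · rintro _ ⟨q, rfl⟩
      exact ha1 _ _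
    · refine mk_range_le.trans ?_
      exact mk_prod_le (hμ.trans hμρ) ((mk_succTy _).trans_le hl.opB)
        ((hι.trans hl.νμ).trans hμρ)
    · intro q hq hqc
      obtain ⟨ξ, hξ⟩ := ha2 q (fun c => c) (hqc.trans hl.νμ) fun c => Or.inr (hq c.2)
      have h1 := hξ ξ le_rfl
      have hc : #(q ⊕ ι) ≤ ν := mk_sum_le' hν hqc hι
      have h2 := EqS.mono (hν.trans (hst ν hl.hℓ).1) hα h1 (hc.trans (hst ν hl.hℓ).1)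
      obtain ⟨s, hsG, hs'⟩ := exists_mem_autG h₀ hK hunb hst hCm hs hCc hl.hℓ
        (hlθ.νμ.trans_lt (hlθ.μΛ hunb)) hc _ _ h2.symm
      refine ⟨s, hsG, fun c hc => hs' (Sum.inl ⟨c, hc⟩), fun i => ?_⟩
      have h3 : s (z i) = a ξ i := hs' (Sum.inr i)
      rw [h3]
      exact ⟨(ξ, i), rfl⟩

/-- A sequence in `D` which converges to `x₀` over `D` and to `x'` over `B'`. -/
theorem hlim_of_conv (hτ₁θ : τ₁ < θ) (hl : Lvl ℓ κf α ν μ ρ τ₁) (hα : α ν ≤ μ)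
    {X : Type u} [LinearOrder X] [Nonempty X] (hX : #X ≤ ρ) {D B' : Set C} {ι : Type u}
    (hι : #ι ≤ ν) (b : X → ι → C) (x x' : ι → C) (hb : ∀ ξ i, b ξ i ∈ D)
    (h1 : Conv L μ b x D) (h2 : Conv L μ b x' B') :
    ∃ q₁ ⊆ D, #q₁ ≤ ρ ∧ ∀ y₁ ⊆ B', #y₁ ≤ ν → ∀ y₂ ⊆ D, #y₂ ≤ ν → ∃ s₁ ∈ autG L C,
      ∃ s₂ ∈ autG L C, (∀ y ∈ y₁, s₁ y = y) ∧ (∀ y ∈ y₂, s₂ y = y) ∧
        ∀ i, s₁ (x' i) = s₂ (x i) ∧ s₂ (x i) ∈ q₁ := by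
  have hlθ : Lvl ℓ κf α ν μ ρ θ := lvl_mono hl hτ₁θ.le
  have hμ := hl.hμ hK
  have hν : ℵ₀ ≤ ν := hK.1.trans hl.hℓ
  have hμρ := hl.μρ hunb
  refine ⟨range fun q : X × ι => b q.1 q.2, ?_, ?_, ?_⟩
  · rintro _ ⟨q, rfl⟩
    exact hb _ _
  · exact mk_range_le.trans (mk_prod_le (hμ.trans hμρ) hX ((hι.trans hl.νμ).trans hμρ))
  · intro y₁ hy₁ hy₁c y₂ hy₂ hy₂c
    obtain ⟨ξ₁, hξ₁⟩ := h2 y₁ (fun c => c) (hy₁c.trans hl.νμ) fun c => hy₁ c.2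
    obtain ⟨ξ₂, hξ₂⟩ := h1 y₂ (fun c => c) (hy₂c.trans hl.νμ) fun c => hy₂ c.2
    have h3 := hξ₁ _ (le_max_left ξ₁ ξ₂)
    have h4 := hξ₂ _ (le_max_right ξ₁ ξ₂)
    have hc₁ : #(y₁ ⊕ ι) ≤ ν := mk_sum_le' hν hy₁c hι
    have hc₂ : #(y₂ ⊕ ι) ≤ ν := mk_sum_le' hν hy₂c hι
    have h5 := EqS.mono (hν.trans (hst ν hl.hℓ).1) hα h3 (hc₁.trans (hst ν hl.hℓ).1)
    have h6 := EqS.mono (hν.trans (hst ν hl.hℓ).1) hα h4 (hc₂.trans (hst ν hl.hℓ).1)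
    obtain ⟨s₁, hs₁, hs₁'⟩ := exists_mem_autG h₀ hK hunb hst hCm hs hCc hl.hℓ
      (hlθ.νμ.trans_lt (hlθ.μΛ hunb)) hc₁ _ _ h5.symm
    obtain ⟨s₂, hs₂, hs₂'⟩ := exists_mem_autG h₀ hK hunb hst hCm hs hCc hl.hℓ
      (hlθ.νμ.trans_lt (hlθ.μΛ hunb)) hc₂ _ _ h6.symm
    refine ⟨s₁, hs₁, s₂, hs₂, fun c hc => hs₁' (Sum.inl ⟨c, hc⟩),
      fun c hc => hs₂' (Sum.inl ⟨c, hc⟩), fun i => ?_⟩
    have h7 : s₁ (x' i) = b (max ξ₁ ξ₂) i := hs₁' (Sum.inr i)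
    have h8 : s₂ (x i) = b (max ξ₁ ξ₂) i := hs₂' (Sum.inr i)
    refine ⟨h7.trans h8.symm, ?_⟩
    rw [h8]
    exact ⟨(_, i), rfl⟩

/-- **Shrinking isolating sets.** `T ≤ N` are strong submodels of sizes `τ₁ < θ` and `θ`,
`e ⊆ T`, `D ⊆ T`, and the set `B` isolates the type of `e` over `X`. If the small pieces of `X` are
limits over `D` of sequences in `D`, which have limits in `X` over `B'`, and the small pieces of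
`B'` are reflected into `D` over the small pieces of `T`, then `D` isolates the type of `e` over
`X`. -/
theorem pg_isol_shrinkL (hτ₁ : BasePt K ℓ κf α τ₁) (hτ₁θ : τ₁ < θ)
    (hl : Lvl ℓ κf α ν μ ρ τ₁) (hα : α ν ≤ μ)
    {N T : L.Substructure C} (hN : K.le N) (hNc : #N = θ) (hT : K.le T) (hTc : #T = τ₁)
    (hTN : T ≤ N) {X B B' D e : Set C} (hDT : D ⊆ T) (heT : e ⊆ T) (hB'N : B' ⊆ N)
    (hμ₀ : ℵ₀ ≤ μ₀) (heν : #e ≤ ν) (hμν : μ₀ ≤ ν)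
    (hlim : ∀ x₀ ⊆ X, #x₀ ≤ μ₀ → ∃ (Ξ : Type u) (_ : LinearOrder Ξ) (_ : Nonempty Ξ)
      (b : Ξ → x₀ → C) (x' : x₀ → C), #Ξ ≤ ρ ∧ (∀ ξ i, b ξ i ∈ D) ∧ (∀ i, x' i ∈ X) ∧
      Conv L μ b (fun i => (i : C)) D ∧ Conv L μ b x' B')
    (hrefl : ∀ y ⊆ B', #y ≤ μ₀ → ∀ q ⊆ (T : Set C), #q ≤ ρ →
      ∃ t ∈ autG L C, (∀ x ∈ q, t x = x) ∧ ∀ x ∈ y, t x ∈ D)
    (hTB : ∀ E : Set C, #E ≤ ν → ∀ g ∈ autG L C, (∀ y ⊆ B', #y ≤ μ₀ →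
      ∃ h ∈ autG L C, (∀ x ∈ y, h x = x) ∧ ∀ x ∈ E, h x = g x) →
      ∃ h ∈ autG L C, (∀ x ∈ B, h x = x) ∧ ∀ x ∈ E, h x = g x)
    (hTX : ∀ g ∈ autG L C, (∀ y ⊆ X, #y ≤ μ₀ →
      ∃ h ∈ autG L C, (∀ x ∈ y, h x = x) ∧ ∀ x ∈ e, h x = g x) →
      ∀ A ⊆ X, #A < θ → ∃ h ∈ autG L C, (∀ x ∈ A, h x = x) ∧ ∀ x ∈ e, h x = g x)
    (hB : (pg h₀ hK hunb hst hCm hs hCc).Isol B X e) :
    (pg h₀ hK hunb hst hCm hs hCc).Isol D X e := by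
  classical
  have hμ := hl.hμ hK
  have hν : ℵ₀ ≤ ν := hK.1.trans hl.hℓ
  have hνρ : ν ≤ ρ := hl.νμ.trans (hl.μρ hunb)
  have hρτ := hl.lt
  refine isol_shrink₄ (M := pg h₀ hK hunb hst hCm hs hCc) (T₁ := (T : Set C)) (B := B) (B' := B')
    (μ := μ₀) (τ := ρ) hDT heT (heν.trans hνρ) (hν.trans hνρ) hμ₀ (hμν.trans hνρ)
    ((hμν.trans hνρ).trans_lt (hρτ.trans hτ₁θ)) hrefl ?_ ?_ (hTB e heν)
    (fun x₀ _ hx₀c => hTB x₀ (hx₀c.trans hμν)) hTX hB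
  · intro g hg hgD x₀ hx₀ hx₀c
    obtain ⟨z, h1, q₀, hq₀, hq₀c, h2⟩ := exists_free_copyN h₀ hK hunb hst hCm hs hCc hτ₁ hτ₁θ
      hl hα hN hNc hT hTc hTN (ι := e ⊕ x₀) (mk_sum_le' hν heν (hx₀c.trans hμν))
      (Sum.elim (fun a : e => g a) fun a : x₀ => (a : C))
    refine ⟨fun x => if hx : x ∈ e then z (Sum.inl ⟨x, hx⟩) else x,
      fun x => if hx : x ∈ x₀ then z (Sum.inr ⟨x, hx⟩) else x, ?_, q₀, hq₀, hq₀c, ?_⟩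
    · intro p hp hpc
      obtain ⟨k, hk, hk1, hk2⟩ := h1 p hp (hpc.trans_lt hρτ)
      refine ⟨k, hk, hk1, fun x hx => ?_, fun x hx => ?_⟩
      · simp only [dif_pos hx]
        exact hk2 (Sum.inl ⟨x, hx⟩)
      · simp only [dif_pos hx]
        exact hk2 (Sum.inr ⟨x, hx⟩)
    · intro q hq hqc
      obtain ⟨s, hs1, hs2, hs3⟩ := h2 q (hq.trans (union_subset hB'N fun c hc =>
        hTN (hDT hc))) (hqc.trans hμν)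
      refine ⟨s, hs1, hs2, fun x hx => ?_, fun x hx => ?_⟩
      · simp only [dif_pos hx]
        exact hs3 (Sum.inl ⟨x, hx⟩)
      · simp only [dif_pos hx]
        exact hs3 (Sum.inr ⟨x, hx⟩)
  · intro x₀ hx₀ hx₀c
    obtain ⟨Ξ, _, _, b, x', hΞ, hb, hx', hc1, hc2⟩ := hlim x₀ hx₀ hx₀c
    obtain ⟨q₁, hq₁, hq₁c, h3⟩ := hlim_of_conv h₀ hK hunb hst hCm hs hCc hτ₁θ hl hα hΞ
      (hx₀c.trans hμν) b (fun i => (i : C)) x' hb hc1 hc2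
    refine ⟨fun x => if hx : x ∈ x₀ then x' ⟨x, hx⟩ else x, fun x hx => ?_, q₁, hq₁, hq₁c, ?_⟩
    · simp only [dif_pos hx]
      exact hx' _
    · intro y₁ hy₁ hy₁c y₂ hy₂ hy₂c
      obtain ⟨s₁, hs₁, s₂, hs₂, h4, h5, h6⟩ := h3 y₁ hy₁ (hy₁c.trans hμν) y₂ hy₂
        (hy₂c.trans hμν)
      refine ⟨s₁, hs₁, s₂, hs₂, h4, h5, fun x hx => ?_⟩
      simp only [dif_pos hx]
      exact h6 ⟨x, hx⟩

end

end Vale.Agent.P307.R2.H478
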